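import Crest.Agent.R214.MTree
import Crest.Agent.R214.MD0
import Crest.Agent.R214.MD1
import Crest.Agent.R214.MD2
import Crest.Agent.R214.MD3
import Crest.Agent.R214.MD4
import Crest.Agent.R214.MD5
import Crest.Agent.R214.MD6
import Crest.Agent.R214.MD7

/-!
# R214 / Cert : the one-dimensional certificate
-/

set_option autoImplicit false

namespace Crest.Agent.R214

theorem ok_top1 : Ok false top1 :=
   ok_split _ _ 3 (ok_split _ _ 3 (ok_of_chk c0) (ok_split _ _ 0 (ok_split _ _ 2 (ok_of_chk c1) (ok_split _ _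
   0 (ok_split _ _ 2 (ok_split _ _ 1 (ok_of_chk c2) (ok_split _ _ 1 (ok_split _ _ 0 (ok_split _ _ 0 (ok_split
   _ _ 2 (ok_of_chk c3) (ok_split _ _ 0 (ok_split _ _ 0 (ok_split _ _ 2 (ok_split _ _ 0 (ok_split _ _ 0
   (ok_split _ _ 2 (ok_of_chk c4) (ok_of_chk c5)) (ok_of_chk c6)) (ok_of_chk c7)) (ok_split _ _ 0 (ok_split _
   _ 0 (ok_split _ _ 1 (ok_of_chk c8) (ok_split _ _ 2 (ok_of_chk c9) (ok_split _ _ 0 (ok_split _ _ 0
   (ok_of_chk c10) (ok_of_chk c11)) (ok_of_chk c12)))) (ok_of_chk c13)) (ok_of_chk c14))) (ok_of_chk c15))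
   (ok_of_chk c16))) (ok_of_chk c17)) (ok_of_chk c18)) (ok_of_chk c19))) (ok_split _ _ 1 (ok_of_chk c20)
   (ok_split _ _ 1 (ok_split _ _ 0 (ok_split _ _ 0 (ok_split _ _ 2 (ok_split _ _ 0 (ok_split _ _ 0 (ok_split _
   _ 1 (ok_of_chk c21) (ok_split _ _ 0 (ok_split _ _ 2 (ok_split _ _ 0 (ok_split _ _ 0 (ok_split _ _ 1
   (ok_of_chk c22) (ok_split _ _ 2 (ok_split _ _ 0 (ok_of_chk c23) (ok_of_chk c24)) (ok_of_chk c25)))
   (ok_of_chk c26)) (ok_of_chk c27)) (ok_of_chk c28)) (ok_of_chk c29))) (ok_of_chk c30)) (ok_of_chk c31))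
   (ok_of_chk c32)) (ok_of_chk c33)) (ok_of_chk c34)) (ok_split _ _ 0 (ok_split _ _ 2 (ok_split _ _ 0
   (ok_split _ _ 0 (ok_split _ _ 0 (ok_split _ _ 0 (ok_split _ _ 2 (ok_split _ _ 0 (ok_split _ _ 0 (ok_split _
   _ 2 (ok_split _ _ 0 (ok_split _ _ 2 (ok_of_chk c35) (ok_of_chk c36)) (ok_of_chk c37)) (ok_of_chk c38))
   (ok_of_chk c39)) (ok_of_chk c40)) (ok_of_chk c41)) (ok_of_chk c42)) (ok_of_chk c43)) (ok_of_chk c44))
   (ok_of_chk c45)) (ok_of_chk c46)) (ok_of_chk c47))))) (ok_of_chk c48))) (ok_of_chk c49))) (ok_split _ _ 3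
   (ok_split _ _ 0 (ok_split _ _ 2 (ok_of_chk c50) (ok_split _ _ 0 (ok_split _ _ 2 (ok_split _ _ 1 (ok_of_chk
   c51) (ok_split _ _ 1 (ok_split _ _ 0 (ok_split _ _ 0 (ok_split _ _ 2 (ok_of_chk c52) (ok_split _ _ 0
   (ok_split _ _ 0 (ok_split _ _ 2 (ok_split _ _ 0 (ok_split _ _ 0 (ok_split _ _ 2 (ok_of_chk c53) (ok_of_chk
   c54)) (ok_of_chk c55)) (ok_of_chk c56)) (ok_split _ _ 0 (ok_split _ _ 0 (ok_split _ _ 1 (ok_of_chk c57)
   (ok_split _ _ 2 (ok_of_chk c58) (ok_of_chk c59))) (ok_of_chk c60)) (ok_of_chk c61))) (ok_of_chk c62))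
   (ok_of_chk c63))) (ok_of_chk c64)) (ok_of_chk c65)) (ok_of_chk c66))) (ok_split _ _ 1 (ok_of_chk c67)
   (ok_split _ _ 1 (ok_of_chk c68) (ok_split _ _ 0 (ok_split _ _ 2 (ok_split _ _ 0 (ok_split _ _ 0 (ok_split _
   _ 0 (ok_split _ _ 0 (ok_split _ _ 2 (ok_split _ _ 0 (ok_split _ _ 0 (ok_split _ _ 2 (ok_of_chk c69)
   (ok_of_chk c70)) (ok_of_chk c71)) (ok_of_chk c72)) (ok_of_chk c73)) (ok_of_chk c74)) (ok_of_chk c75))
   (ok_of_chk c76)) (ok_of_chk c77)) (ok_of_chk c78)) (ok_of_chk c79))))) (ok_of_chk c80))) (ok_of_chk c81))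
   (ok_of_chk c82))

theorem ok_top2 : Ok true top2 :=
   ok_of_chk c83

theorem certStmt : CertStmt :=
  ⟨410 / 4096, 1620 / 4096, KS0, by norm_num, by norm_num, by norm_num, KS0_mem, KS0_small,
    m2_of_ok ok_top2, m1_of_ok ok_top1⟩

end Crest.Agent.R214
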