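import Mathlib.Data.Nat.Log
import Mathlib.Data.Nat.Basic

/-!
# R214/KChk

The Boolean checker of the one-dimensional certificate. All reals are natural numbers in units of `1/M`.
-/

set_option autoImplicit false

noncomputable section

namespace Crest.Agent.R214.K

def force {α : Type} (n : ℕ) (k : ℕ → α) : α := Nat.rec (k 0) (fun m _ => k (Nat.succ m)) n

theorem force_eq {α : Type} (n : ℕ) (k : ℕ → α) : force n k = k n := by cases n <;> rfl

def M : ℕ := 16777216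
def O : ℕ := 1073741824
def PL : ℕ := 52707178
def PH : ℕ := 52707179
def tabE : ℕ := 0xc90f6000ce2d4100d27afb00d652fb00d9d33800dd0c2000e0084800e2cf2700e5664800e7d1fb00ea15ad00ec342b00ee2fc800f00a7700f1c5e300f3637800f4e47300f649e500f794bf00f8c5d100f9ddd400fadd6900fbc51e00fc956f00fd4ec600fdf18100fe7df100fef45700ff54ed00ff9fde00ffd54e00fff55401000000
def tabI : ℕ := 0x2020202020202020202020202020202020202020202020201f1f1f1f1f1f1f1e1e1e1d1d1d1c1c1b1b1a1a19181817161514131211100f0d0c0b09080705040201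

def mn (a b : ℕ) : ℕ := cond (Nat.ble a b) a b
def mx (a b : ℕ) : ℕ := cond (Nat.ble a b) b a
def nw (n e : ℕ) : ℕ := (e + n / e) / 2
/-- lower bound for the square root -/
def sq (n : ℕ) : ℕ :=
  force n fun n => force (2 ^ ((Nat.log2 n + 1) / 2)) fun e => force (nw n e) fun e =>
    force (nw n e) fun e => force (nw n e) fun e => mn e (n / e)
def lA (x : ℕ) : ℕ := sq (PL * x)
def lB (H x : ℕ) : ℕ :=
  force (M - x) fun xp =>
    cond (Nat.blt (PH * H * H / (4 * M * M)) xp) (xp * M / H + PL * H / (4 * M)) (sq (PL * xp))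
def tE (i : ℕ) : ℕ := (tabE >>> (32 * i)) % 4294967296
def tI (j : ℕ) : ℕ := (tabI >>> (8 * j)) % 256 % 33
def idx (h1 x y : ℕ) : ℕ := cond (Nat.ble h1 x) (tI (((x + y) / 2 - h1) * 64 / M)) 0
def lG (i h1 x : ℕ) : ℕ := tE i + i * (x - h1) / 32
def l2 (i H h1 x : ℕ) : ℕ := force (mn (lA x) (lB H x)) fun u => mn u (lG i h1 x)
def ell (U W x : ℕ) : ℕ := U * M + W * x - O * (M + x)
def cd (a b : ℕ) : ℕ := (a + b - 1) / b
def bern (s0 s1 Lx Ly px py : ℕ) : Bool :=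
  Nat.ble px (s0 * Lx) && Nat.ble py (s1 * Ly) &&
    Nat.ble (px + py) (s0 * Ly + s1 * Lx + 2 * mn (s0 * Lx - px) (s1 * Ly - py))

structure Pm where
  (H h1 c0 c1 b1 a0 W U1 U2 : ℕ)

def fin (cnt : Bool) (w ax ay bx bz p1x p1y p2x p2y s0 s1 : ℕ) : ℕ :=
  cond (cnt && bern s0 s1 ax ay p1x p1y && bern s0 s1 bx bz p2x p2y)
    (1 + w * (sq (M * M - s0 * s0) + sq (M * M - s1 * s1)))
    (cond (bern M M ax ay p1x p1y && bern M M bx bz p2x p2y) 1 0)

/-- `0` = failure, otherwise `1 +` the contribution of the cell -/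
def cell (P : Pm) (x y : ℕ) : ℕ :=
  force (idx P.h1 x y) fun i => force (lB P.H x) fun ax => force (lB P.H y) fun ay =>
  force (l2 i P.H P.h1 x) fun bx => force (l2 i P.H P.h1 y) fun bz =>
  force (cond (Nat.blt P.c0 y) (ell P.U1 P.W x) 0) fun p1x =>
  force (cond (Nat.blt P.c0 y) (ell P.U1 P.W y) 0) fun p1y =>
  force (cond (Nat.blt x P.c1) (ell P.U2 P.W x) 0) fun p2x =>
  force (cond (Nat.blt x P.c1) (ell P.U2 P.W y) 0) fun p2y =>
  force (mn M (mx (cd p1x ax) (cd p2x bx))) fun t0 =>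
  force (mn M (mx (cd p1y ay) (cd p2y bz))) fun t1 =>
  force (mx (cd (p1x + p1y - (t0 * ay + t1 * ax)) (ax + ay + 2 * mn ax ay))
    (cd (p2x + p2y - (t0 * bz + t1 * bx)) (bx + bz + 2 * mn bx bz))) fun d =>
  force (mn M (t0 + d)) fun s0 => force (mn M (t1 + d)) fun s1 =>
  fin (Nat.ble P.b1 x && Nat.ble y P.a0) (y - x) ax ay bx bz p1x p1y p2x p2y s0 s1

def node (x z n j : ℕ) : ℕ := x + (z - x) * ((n - j) * (n - j) * (3 * n - 2 * (n - j))) / (n * n * n)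

def loop (P : Pm) (x0 z n j : ℕ) : ℕ → ℕ → (ℕ → ℕ → Bool) → Bool :=
  Nat.rec (fun x acc k => k x acc)
    (fun j ih x acc k => force (node x0 z n j) fun y => cond (Nat.ble y x) (ih x acc k)
      (Nat.ble y M && force (cell P x y) fun r =>
        Nat.blt 0 r && force (acc + (r - 1)) fun acc' => ih y acc' k)) j

def seg (P : Pm) (D z : ℕ) (k : ℕ → ℕ → Bool) (x acc : ℕ) : Bool :=
  cond (Nat.ble z x) (k x acc) (force ((z - x) * D / M + 1) fun n => loop P x z n n x acc k)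

def dPos (l : ℕ) : ℕ :=
  force (mn (PH * M / (4 * l) + 1) (2 * PH * M * M / (3 * l * l) + 1)) fun d =>
  force (cond (Nat.ble (2 * l) PL) (mn d (M - l * M / PH)) d) fun d =>
  cond (Nat.ble (9 * M) (4 * l) && Nat.ble l (3 * M)) (mn d (2 * PH * (9 * M - 2 * l) / (81 * M) + 1)) d
/-- upper bound for `sup (J v - lam v)` -/
def dUp (W : ℕ) : ℕ := cond (Nat.ble W O) (M + (O - W) / 2 + 1) (force (W - O) dPos)

structure Bx where
  (h0 h1 a0 a1 c0 c1 b0 b1 : ℕ)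

def run (P : Pm) (D b0 a1 : ℕ) (k : ℕ → ℕ → Bool) : Bool :=
  seg P D (mn P.b1 P.c0) (seg P D (mn (mx P.b1 P.c0) (mn P.c1 P.a0))
    (seg P D (mx (mx P.b1 P.c0) (mn P.c1 P.a0)) (seg P D (mx P.c1 P.a0) (seg P D a1 k)))) b0 0

def leaf (Q : ℕ) (B : Bx) (D W U1 U2 : ℕ) : Bool :=
  force (M - B.h0) fun H => force W fun W => force U1 fun U1 => force U2 fun U2 =>
  Nat.blt 0 H && Nat.ble B.b0 B.c0 && Nat.ble B.c0 M &&
  Nat.ble (ell U2 W B.b0) (M * l2 (idx B.h1 B.b0 B.b0) H B.h1 B.b0) &&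
  Nat.ble (ell U1 W B.c0) (M * lB H B.c0) &&
  run ⟨H, B.h1, B.c0, B.c1, B.b1, B.a0, W, U1, U2⟩ D B.b0 B.a1 fun x acc =>
    Nat.ble B.a1 x && Nat.blt (2 * O * M + 2 * dUp W * M) (2 * (Q * U1 + (M - Q) * U2) + acc)

def clip (B : Bx) (k : Bx → Bool) : Bool :=
  force (mx B.c0 B.b0) fun c0 => force (mn B.c1 B.a1) fun c1 => force (mn B.b1 c1) fun b1 =>
    force (mx B.a0 c0) fun a0 => k ⟨B.h0, B.h1, a0, B.a1, c0, c1, B.b0, b1⟩

def split (d : ℕ) (l r : Bx → Bool) (B : Bx) : Bool :=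
  cond (Nat.beq d 0) (force ((B.h0 + B.h1) / 2) fun m =>
      clip ⟨B.h0, m, B.a0, B.a1, B.c0, B.c1, B.b0, B.b1⟩ l && clip ⟨m, B.h1, B.a0, B.a1, B.c0, B.c1, B.b0, B.b1⟩ r)
  (cond (Nat.beq d 1) (force ((B.a0 + B.a1) / 2) fun m =>
      clip ⟨B.h0, B.h1, B.a0, m, B.c0, B.c1, B.b0, B.b1⟩ l && clip ⟨B.h0, B.h1, m, B.a1, B.c0, B.c1, B.b0, B.b1⟩ r)
  (cond (Nat.beq d 2) (force ((B.c0 + B.c1) / 2) fun m =>
      clip ⟨B.h0, B.h1, B.a0, B.a1, B.c0, m, B.b0, B.b1⟩ l && clip ⟨B.h0, B.h1, B.a0, B.a1, m, B.c1, B.b0, B.b1⟩ r)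
    (force ((B.b0 + B.b1) / 2) fun m =>
      clip ⟨B.h0, B.h1, B.a0, B.a1, B.c0, B.c1, B.b0, m⟩ l && clip ⟨B.h0, B.h1, B.a0, B.a1, B.c0, B.c1, m, B.b1⟩ r)))

inductive T where
  | e : T
  | n : T
  | l (D W U1 U2 : ℕ) : T
  | s (d : ℕ) (l r : T) : T

def chk (Q : ℕ) (t : T) : Bx → Bool :=
  T.rec (fun B => Nat.blt B.c1 B.c0) (fun B => Nat.ble (M - 4096) B.a0 && Nat.ble B.b1 4096)
    (fun D W U1 U2 B => leaf Q B D (W * 256) (U1 * 16) (U2 * 16)) (fun d _ _ l r => split d l r) t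

def kk (i x : ℕ) : ℕ := force ((i * x + 31) / 32) fun s => sq (M * M - s * s)
def eLoop (i j : ℕ) : ℕ → ℕ → Bool :=
  Nat.rec (fun x acc => Nat.beq x M && Nat.ble (tE i * (2 * M)) acc)
    (fun j ih x acc => force (node 0 M 256 j) fun y => Nat.ble x y && Nat.ble y M &&
      force (acc + (y - x) * (kk i x + kk i y)) fun acc' => ih y acc') j
def eAll (n : ℕ) : Bool := Nat.rec true (fun i ih => eLoop i 256 0 0 && ih) n

end Crest.Agent.R214.K
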