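import Mathlib

/-!
# R214 / MChk : the checker of the one-dimensional certificate (written for kernel evaluation)

Grid `1/4096`, scale `2^24`.  A leaf carries a multiplier `λ = (lp - 2^15)/2^12`, constants
`c_j = (c_j - 2^28)/2^24`, a bound `md` for `sup (J v - λ v)` and a cell size `g`.
-/

set_option autoImplicit false

namespace Crest.Agent.R214

/-- `frc n f = f n`, evaluating `n` first -/
noncomputable def frc {γ : Type} (n : ℕ) (f : ℕ → γ) : γ :=
  @Nat.rec (fun _ => γ) (f 0) (fun m _ => f m) (Nat.succ n)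

theorem frc_eq {γ : Type} (n : ℕ) (f : ℕ → γ) : frc n f = f n := rfl

noncomputable def cR {γ : Type} (b : Bool) (x y : γ) : γ := @Bool.rec (fun _ => γ) y x b

/-- `max` and `min`; the second argument is used once -/
def mx (a b : ℕ) : ℕ := Nat.add a (Nat.sub b a)
def mn (a b : ℕ) : ℕ := Nat.sub a (Nat.sub a b)

/-- for `E = 2^24 D + 1`: a bound for `n² / D` -/
def cq (n E : ℕ) : ℕ :=
  Nat.succ (Nat.div (Nat.shiftLeft (Nat.pow n (nat_lit 2)) (nat_lit 24)) E)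

/-- `2^24 ⌊L² / 2^24⌋ + 1` -/
def sq1 (L : ℕ) : ℕ :=
  Nat.succ (Nat.shiftLeft (Nat.shiftRight (Nat.pow L (nat_lit 2)) (nat_lit 24)) (nat_lit 24))

/-- `2^24 · 12867 x + 1` -/
def co (x : ℕ) : ℕ := Nat.succ (Nat.mul (nat_lit 215872438272) x)

noncomputable def dh (Hn zt hc x : ℕ) : ℕ :=
  frc (Nat.sub (nat_lit 4096) x) fun z => cR (Nat.ble zt z)
    (sq1 (Nat.add (Nat.div (Nat.shiftLeft z (nat_lit 24)) Hn) hc)) (co z)

def ETAB : ℕ := 2642954418373763875062534227640015240267551002831156219384414787249192139635157702621641159343739200895719411973530460278930375555172200236242289277389268738455700028581684530154901020348553742503642630946721954023376114822881197238480011264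
def ITAB : ℕ := 68351585149469122636640694597425667665627769910613382469612691802787200855401713711233573340745792

def et (E i : ℕ) : ℕ := Nat.mod (Nat.shiftRight E (Nat.mul (nat_lit 25) i)) (nat_lit 33554432)
def it (I d : ℕ) : ℕ :=
  Nat.mod (Nat.shiftRight I (Nat.mul (nat_lit 5) (Nat.shiftRight d (nat_lit 6)))) (nat_lit 32)

noncomputable def ds (E I hs x : ℕ) : ℕ :=
  frc (Nat.sub x hs) fun d => frc (it I d) fun i =>
    sq1 (Nat.add (et E i) (Nat.shiftLeft (Nat.mul i d) (nat_lit 7)))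

/-- positive part of `c + λ x` -/
def nv (l c x : ℕ) : ℕ :=
  Nat.sub (Nat.add c (Nat.mul l x)) (Nat.shiftLeft (Nat.add (nat_lit 8192) x) (nat_lit 15))

/-- node value of the second segment at `x'`, where `x` is any point to the left of both adjacent cells -/
noncomputable def nd2 {γ : Type} (E I hs l c2 x x' dr : ℕ) (k : ℕ → γ) : γ :=
  frc (mn dr (co x')) fun D => frc (cq (nv l c2 x') (mn D (ds E I hs x))) k

/-- two Newton steps for `√((S - Q) S)`; returns the new guess and the new sum -/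
noncomputable def nw {γ : Type} (Q y acc : ℕ) (k : ℕ → ℕ → γ) : γ :=
  frc (Nat.shiftLeft (Nat.sub (nat_lit 16777216) Q) (nat_lit 24)) fun T =>
  frc (mn (nat_lit 16777216) (Nat.succ (Nat.shiftRight (Nat.add y (Nat.div T y)) (nat_lit 1)))) fun y1 =>
  frc (Nat.succ (Nat.shiftRight (Nat.add y1 (Nat.div T y1)) (nat_lit 1))) fun y2 =>
  frc (Nat.add acc (mn y2 (Nat.div T y2))) fun acc' => k y2 acc'

noncomputable def tl {γ : Type} (p2s r1 x x' y acc Q : ℕ) (k : ℕ → ℕ → γ) (f : γ) : γ :=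
  cR (Nat.ble Q (nat_lit 16777216))
    (cR (Nat.ble p2s x) (cR (Nat.ble x' r1) (nw Q y acc k) (k y acc)) (k y acc)) f

/-- the first segment -/
noncomputable def sg1 {γ : Type} (g l c1 q1s x' dr u1 Q : ℕ) (k : ℕ → ℕ → γ) : γ :=
  cR (Nat.ble q1s (Nat.add x' g))
    (frc (cq (nv l c1 x') dr) fun v1 =>
      cR (Nat.ble q1s x') (frc (mx u1 (mx v1 Q)) fun Q' => k v1 Q') (frc Q fun Q' => k v1 Q'))
    (frc Q fun Q' => k (nat_lit 0) Q')

noncomputable def loop (E I Hn zt hc hs g l c1 c2 p2s q1s q2 r1 : ℕ) (fin : ℕ → Bool) (n : ℕ) :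
    ℕ → ℕ → ℕ → ℕ → ℕ → Bool :=
  @Nat.rec (fun _ => ℕ → ℕ → ℕ → ℕ → ℕ → Bool) (fun _ _ acc _ _ => fin acc)
    (fun _ ih x y acc u1 u2 =>
      frc (Nat.add x g) fun x' => frc (dh Hn zt hc x') fun dr =>
      cR (Nat.ble x q2)
        (nd2 E I hs l c2 x x' dr fun v2 => sg1 g l c1 q1s x' dr u1 (mx u2 v2) fun v1 Q =>
          tl p2s r1 x x' y acc Q (fun y' acc' => ih x' y' acc' v1 v2) false)
        (sg1 g l c1 q1s x' dr u1 (nat_lit 0) fun v1 Q =>
          tl p2s r1 x x' y acc Q (fun y' acc' => ih x' y' acc' v1 (nat_lit 0)) false)) n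

/-- upper bound for `2^36 sup (J v - λ v)`, or `2^60` if the mode does not apply -/
noncomputable def jup (l md : ℕ) : ℕ :=
  cR (Nat.beq md 0) (cR (Nat.ble l 32768) (68719476736 + (32768 - l) * 8388608) (2 ^ 60)) <|
  cR (Nat.ble l 32768) (2 ^ 60) <|
  cR (Nat.beq md 1)
    (cR (Nat.ble l 39201) (68719476736 - (l - 32768) * 68719476736 / 12868) (2 ^ 60)) <|
  cR (Nat.beq md 2) (68719476736 * 12868 / (4 * (l - 32768)) + 1) <|
  cR (Nat.beq md 3)
    (cR (Nat.ble 41984 l) (cR (Nat.ble l 45056) (4096 * 12868 * (73728 - 4 * (l - 32768)) / 81 + 1)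
      (2 ^ 60)) (2 ^ 60)) <|
  68719476736 * 2 * 12868 * 4096 / (3 * (l - 32768) * (l - 32768)) + 1

/-- check of a leaf on a tightened box -/
noncomputable def leaf (Hn hs pn p1 p2 q1 q2 r1 r2 l c1 c2 md g : ℕ) : Bool :=
  frc ETAB fun E => frc ITAB fun I =>
  frc (12868 * Hn * Hn / 67108864 + 1) fun zt => frc (12867 * Hn / 4) fun hc =>
  frc (p1 / g) fun t0 => frc (r2 / g) fun t1 => frc (g * t0) fun x0 => frc (dh Hn zt hc x0) fun d0 =>
  frc (cq (nv l c1 x0) d0) fun u1 => nd2 E I hs l c2 x0 x0 d0 fun u2 =>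
  frc (p2 + 1) fun p2s => frc (q1 + 1) fun q1s => frc (t1 + 1 - t0) fun n =>
  frc (jup l md + 1099511627777) fun goal =>
  cR (Nat.ble 1 g) (cR (Nat.ble (g * (t1 + 1)) 4096)
    (loop E I Hn zt hc hs g l c1 c2 p2s q1s q2 r1
      (fun acc => Nat.ble goal (acc * g + c1 * pn + c2 * (4096 - pn))) n x0 16777216 0 u1 u2)
    false) false

structure Bx where
  p1 : ℕ
  p2 : ℕ
  q1 : ℕ
  q2 : ℕ
  r1 : ℕ
  r2 : ℕ
  h1 : ℕ
  h2 : ℕ

noncomputable def Bx.l (B : Bx) (d : ℕ) : Bx :=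
  @Bx.rec (fun _ => Bx) (fun p1 p2 q1 q2 r1 r2 h1 h2 =>
    cR (Nat.beq d 0) (frc ((p1 + p2) / 2) fun m => ⟨p1, m, q1, q2, r1, r2, h1, h2⟩) <|
    cR (Nat.beq d 1) (frc ((q1 + q2) / 2) fun m => ⟨p1, p2, q1, m, r1, r2, h1, h2⟩) <|
    cR (Nat.beq d 2) (frc ((r1 + r2) / 2) fun m => ⟨p1, p2, q1, q2, r1, m, h1, h2⟩) <|
    frc ((h1 + h2) / 2) fun m => ⟨p1, p2, q1, q2, r1, r2, h1, m⟩) B

noncomputable def Bx.r (B : Bx) (d : ℕ) : Bx :=
  @Bx.rec (fun _ => Bx) (fun p1 p2 q1 q2 r1 r2 h1 h2 =>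
    cR (Nat.beq d 0) (frc ((p1 + p2) / 2 + 1) fun m => ⟨m, p2, q1, q2, r1, r2, h1, h2⟩) <|
    cR (Nat.beq d 1) (frc ((q1 + q2) / 2 + 1) fun m => ⟨p1, p2, m, q2, r1, r2, h1, h2⟩) <|
    cR (Nat.beq d 2) (frc ((r1 + r2) / 2 + 1) fun m => ⟨p1, p2, q1, q2, m, r2, h1, h2⟩) <|
    frc ((h1 + h2) / 2 + 1) fun m => ⟨p1, p2, q1, q2, r1, r2, m, h2⟩) B

inductive Tr where
  | N : ℕ → Tr → Tr → Tr
  | L : ℕ → Tr
  | S : Tr
  | E : Tr

/-- leaf with a packed certificate; `M = true` is the strip model, where `w = a` -/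
noncomputable def leafB (M : Bool) (B : Bx) (c : ℕ) : Bool :=
  @Bx.rec (fun _ => Bool) (fun p1 p2 q1 q2 r1 r2 h1 h2 =>
    frc (cR M 8192 (4096 - h1)) fun Hn => frc (cR M 410 (h2 + 1)) fun hs =>
    frc (cR M 0 410) fun pn => frc (cR M r1 q1) fun q1 => frc (cR M r2 q2) fun q2 =>
    frc (mx q1 p1) fun q1 => frc (mn q2 r2) fun q2 => frc (mx r1 q1) fun r1 => frc (mn p2 q2) fun p2 =>
    frc (c % 256) fun g => frc (c / 256 % 8) fun md => frc (c / 2048 % 131072) fun l =>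
    frc (c / 268435456 % 1073741824) fun c1 => frc (c / 288230376151711744) fun c2 =>
    leaf Hn hs pn p1 p2 q1 q2 r1 r2 l c1 c2 md g) B

noncomputable def chk (M : Bool) (t : Tr) : Bx → Bool :=
  @Tr.rec (fun _ => Bx → Bool)
    (fun d _ _ a b B => cR (a (B.l d)) (b (B.r d)) false)
    (fun c B => leafB M B c)
    (fun B => cR (Nat.ble 4088 B.r1) (Nat.ble B.p2 7) false)
    (fun B => cR (Nat.ble B.p1 B.q2) (cR (Nat.ble B.q1 B.r2) (cR (Nat.ble B.p1 B.r2) false true) true) true) t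

def top1 : Bx := ⟨0, 4095, 0, 4095, 0, 4095, 0, 4095⟩
def top2 : Bx := ⟨0, 4095, 0, 4095, 1620, 4095, 0, 4095⟩

end Crest.Agent.R214
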